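import Vale.Agent.P141.H38.StkP

/-!
# P141, line (A): the moving stack at hub `x3` with operator caps

`H293.node_w`, `H293.mid_QW`, `H38.mid_P`, `H38.stkP` with the caps as upper bounds of the Gram
matrices (not of their traces), so that the number of the levels is `log (cap / level)` with the
operator cap.  `QW_cap_w`, `QW_cap_rect` : the supply.
-/

namespace Vale.Agent.P141.H204

open Finset Matrix Vale.Agent.P141.PL Vale.Agent.P141.PL.H103 Vale.Agent.P141.H103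
open Vale.Agent.P141.H505 Vale.Agent.P141.H258 Vale.Agent.P141.H293 Vale.Agent.P141.H38
open Vale.Agent.P141.H389 (Wf XW XWs)
open Vale.Agent.P075 (Ix val rad GX phi res exists_sq psd_sq psd_isSymm psd_conj
  psd_transpose_mul psd_mul_transpose)
open Vale.Agent.P141.H585.PairCh (phs dls mv_zero)

noncomputable section

open scoped Classical

section swap

variable {ρ ν : Type*} [Fintype ρ] [DecidableEq ρ] [Fintype ν] [DecidableEq ν]

/-- a cap of `Cᵀ C` is a cap of `C Cᵀ` -/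
theorem cap_swap (C : Matrix ρ ν ℝ) {t : ℝ} (ht : 0 ≤ t)
    (h : (1 - t • (Cᵀ * C)).PosSemidef) : (1 - t • (C * Cᵀ)).PosSemidef := by
  refine PosSemidef.of_dotProduct_mulVec_nonneg ?_ fun x => ?_
  · rw [IsHermitian, conjTranspose_eq_transpose_of_trivial, transpose_sub, transpose_smul,
      transpose_one, transpose_mul, transpose_transpose]
  · have hx : star x = x := rfl
    rw [hx]
    obtain ⟨y, hy⟩ : ∃ y, y = Cᵀ *ᵥ x := ⟨_, rfl⟩
    obtain ⟨z, hz⟩ : ∃ z, z = C *ᵥ y := ⟨_, rfl⟩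
    have adj : ∀ (u : ρ → ℝ) (v : ν → ℝ), u ⬝ᵥ (C *ᵥ v) = (Cᵀ *ᵥ u) ⬝ᵥ v := by
      intro u v
      rw [dotProduct_mulVec, mulVec_transpose]
    have e1 : x ⬝ᵥ ((1 - t • (C * Cᵀ)) *ᵥ x) = x ⬝ᵥ x - t * (y ⬝ᵥ y) := by
      rw [sub_mulVec, one_mulVec, smul_mulVec, dotProduct_sub, dotProduct_smul, smul_eq_mul,
        ← mulVec_mulVec, adj, ← hy]
    rw [e1]
    have h1 := h.dotProduct_mulVec_nonneg y
    have hy' : star y = y := rfl
    have e2 : y ⬝ᵥ ((1 - t • (Cᵀ * C)) *ᵥ y) = y ⬝ᵥ y - t * (z ⬝ᵥ z) := by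
      rw [sub_mulVec, one_mulVec, smul_mulVec, dotProduct_sub, dotProduct_smul, smul_eq_mul,
        ← mulVec_mulVec, ← hz, dotProduct_comm y (Cᵀ *ᵥ z), ← adj, ← hz]
    rw [hy', e2] at h1
    -- |y|² = x · z
    have h2 : y ⬝ᵥ y = x ⬝ᵥ z := by
      rw [hz, adj, ← hy]
    have h3 : (x ⬝ᵥ z) ^ 2 ≤ (x ⬝ᵥ x) * (z ⬝ᵥ z) := by
      have := sum_mul_sq_le_sq_mul_sq univ x z
      have ex : ∀ v : ρ → ℝ, v ⬝ᵥ v = ∑ i, v i ^ 2 := fun v => by
        unfold dotProduct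
        exact sum_congr rfl fun i _ => (pow_two _).symm
      rw [ex, ex]
      exact this
    have hxx : 0 ≤ x ⬝ᵥ x := by
      unfold dotProduct
      exact sum_nonneg fun i _ => mul_self_nonneg _
    have hyy : 0 ≤ y ⬝ᵥ y := by
      unfold dotProduct
      exact sum_nonneg fun i _ => mul_self_nonneg _
    rw [← h2] at h3
    -- t |z|² ≤ |y|², hence t |y|⁴ ≤ |x|² |y|²
    rcases eq_or_lt_of_le hyy with h4 | h4
    · rw [← h4, mul_zero, sub_zero]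
      exact hxx
    · have h5 : t * (y ⬝ᵥ y) ^ 2 ≤ (x ⬝ᵥ x) * (y ⬝ᵥ y) := by
        have a := mul_le_mul_of_nonneg_left h3 ht
        have b : (x ⬝ᵥ x) * (t * (z ⬝ᵥ z)) ≤ (x ⬝ᵥ x) * (y ⬝ᵥ y) :=
          mul_le_mul_of_nonneg_left (by linarith) hxx
        nlinarith
      have h6 : t * (y ⬝ᵥ y) ≤ x ⬝ᵥ x := by
        have : (t * (y ⬝ᵥ y)) * (y ⬝ᵥ y) ≤ (x ⬝ᵥ x) * (y ⬝ᵥ y) := by nlinarith
        exact le_of_mul_le_mul_right this h4
      linarith

/-- **`H293.node_w` with operator caps.** -/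
theorem node_wO {T M Np Nm : Matrix ρ ρ ℝ} (hT : T.PosSemidef) (hd : IsUnit T.det)
    (hM : Mᵀ = M) (hNp : Np.PosSemidef) (hNm : Nm.PosSemidef) (h0 : (T + Np - Nm + M).PosSemidef)
    (h1 : (T + Np - Nm - M).PosSemidef) (C₀ C₁ : Matrix ρ ν ℝ) {μ : ℝ} (hμ : 0 < μ) (J : ℕ)
    (c0 : (1 - (μ / 4 ^ J) • (C₀ᵀ * T * C₀)).PosSemidef)
    (c1 : (1 - (μ / 4 ^ J) • (C₁ᵀ * T * C₁)).PosSemidef) :
    SG μ J ((1 / 2 : ℝ) • ((fromCols C₀ C₁)ᵀ * T * fromCols C₀ C₁))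
        + (1 / 4) * SC μ J (rad ν) ((1 / 2 : ℝ) • ((fromCols C₀ C₁)ᵀ * T * fromCols C₀ C₁))
      ≤ (1 / 2) * (SG μ J (C₀ᵀ * (T + Np - Nm + M) * C₀)
          + SG μ J (C₁ᵀ * (T + Np - Nm - M) * C₁))
        + 32 * ((J : ℝ) + 1) ^ 3
          * ((C₀ᵀ * (M * T⁻¹ * M) * C₀).trace + (C₁ᵀ * (M * T⁻¹ * M) * C₁).trace)
        + (1 / 2) * ((J : ℝ) + 1) * ((C₀ᵀ * Nm * C₀).trace + (C₁ᵀ * Nm * C₁).trace) := by
  obtain ⟨S, hS, hSS⟩ := exists_sq hT
  obtain ⟨i1, i2, i3, i4⟩ := root_facts hd hS hSS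
  have sS := psd_isSymm hS
  set Si := S⁻¹ with hSi
  set E := Si * M * Si with hEd
  have hE : Eᵀ = E := by
    rw [hEd, transpose_mul, transpose_mul, i3, hM, Matrix.mul_assoc]
  have hSES : S * E * S = M := by
    rw [hEd, show S * (Si * M * Si) * S = (S * Si) * M * (Si * S) by
      simp only [Matrix.mul_assoc], i1, i2, Matrix.one_mul, Matrix.mul_one]
  have hB : ∀ C D : Matrix ρ ν ℝ, (S * C)ᵀ * (S * D) = Cᵀ * T * D := by
    intro C D
    rw [transpose_mul, sS, ← hSS]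
    simp only [Matrix.mul_assoc]
  have hcap : ∀ C : Matrix ρ ν ℝ, (1 - (μ / 4 ^ J) • (Cᵀ * T * C)).PosSemidef →
      (1 - (μ / 4 ^ J) • ((S * C) * (S * C)ᵀ)).PosSemidef := by
    intro C hc
    refine cap_swap (S * C) (by positivity) ?_
    rw [hB]
    exact hc
  have hBE : ∀ C : Matrix ρ ν ℝ, (S * C)ᵀ * E * (S * C) = Cᵀ * M * C := by
    intro C
    rw [transpose_mul, sS, show Cᵀ * S * E * (S * C) = Cᵀ * (S * E * S) * C by
      simp only [Matrix.mul_assoc], hSES]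
  have hBEE : ∀ C : Matrix ρ ν ℝ, (S * C)ᵀ * (E * E) * (S * C) = Cᵀ * (M * T⁻¹ * M) * C := by
    intro C
    rw [transpose_mul, sS, hEd, show Cᵀ * S * (Si * M * Si * (Si * M * Si)) * (S * C)
      = Cᵀ * ((S * Si) * M * (Si * Si) * M * (Si * S)) * C by simp only [Matrix.mul_assoc],
      i1, i2, i4, Matrix.one_mul, Matrix.mul_one]
  have hconj : ∀ {G : Matrix ρ ρ ℝ}, G.PosSemidef → ∀ C : Matrix ρ ν ℝ,
      (Cᵀ * G * C).PosSemidef := by
    intro G hG C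
    have h := psd_conj hG Cᵀ
    rwa [transpose_transpose] at h
  have h := node_B (S * C₀) (S * C₁) hE hμ J (hcap C₀ c0) (hcap C₁ c1) (hconj h0 C₀)
    (hconj h1 C₁) (hconj hNp C₀) (hconj hNp C₁) (hconj hNm C₀) (hconj hNm C₁)
    (by
      rw [hB, hBE]
      simp only [Matrix.mul_add, Matrix.mul_sub, Matrix.add_mul, Matrix.sub_mul]
      abel)
    (by
      rw [hB, hBE]
      simp only [Matrix.mul_add, Matrix.mul_sub, Matrix.add_mul, Matrix.sub_mul]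
      abel)
  have hp : pX (S * C₀) (S * C₁)
      = (1 / 2 : ℝ) • ((fromCols C₀ C₁)ᵀ * T * fromCols C₀ C₁) := by
    rw [pX, ← mul_fromCols, transpose_mul, sS, ← hSS]
    simp only [Matrix.mul_assoc]
  rw [hp, hBEE, hBEE] at h
  exact h

end swap

variable {κ : Type*} [Fintype κ] [DecidableEq κ]

/-- **`H293.mid_QW` with operator caps.** -/
theorem mid_QWO (a k : ℕ) (b : ℤ → ℤ → κ → ℝ) {T M Np Nm : ℤ → Matrix κ κ ℝ}
    (hT : ∀ x, (T x).PosSemidef) (hd : ∀ x, IsUnit (T x).det) (hM : ∀ x, (M x)ᵀ = M x)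
    (hNp : ∀ x, (Np x).PosSemidef) (hNm : ∀ x, (Nm x).PosSemidef)
    (h0 : ∀ x, (T x + Np x - Nm x + M x).PosSemidef)
    (h1 : ∀ x, (T x + Np x - Nm x - M x).PosSemidef) (n m : ℤ) {μ : ℝ} (hμ : 0 < μ) (J : ℕ)
    (c0 : (1 - (μ / 4 ^ J) • QW a k b T n (2 * m)).PosSemidef)
    (c1 : (1 - (μ / 4 ^ J) • QW a k b T n (2 * m + 1)).PosSemidef) :
    SG μ J (QW a (k + 1) b T n m)
        + (1 / 4) * SC (n := Ix k ⊕ Ix k) μ J (rad (Ix k)) (QW a (k + 1) b T n m)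
      ≤ (1 / 2) * (SG μ J (QW a k b (fun x => T x + Np x - Nm x + M x) n (2 * m))
          + SG μ J (QW a k b (fun x => T x + Np x - Nm x - M x) n (2 * m + 1)))
        + 32 * ((J : ℝ) + 1) ^ 3
          * ((QW a k b (fun x => M x * (T x)⁻¹ * M x) n (2 * m)).trace
            + (QW a k b (fun x => M x * (T x)⁻¹ * M x) n (2 * m + 1)).trace)
        + (1 / 2) * ((J : ℝ) + 1)
          * ((QW a k b Nm n (2 * m)).trace + (QW a k b Nm n (2 * m + 1)).trace) := by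
  have f0 : Tw a (fun x => T x + Np x - Nm x + M x) n
      = Tw a T n + Tw a Np n - Tw a Nm n + Tw a M n := by
    simp only [Tw]
    rw [← blockDiagonal_add, ← blockDiagonal_sub, ← blockDiagonal_add]
    rfl
  have f1 : Tw a (fun x => T x + Np x - Nm x - M x) n
      = Tw a T n + Tw a Np n - Tw a Nm n - Tw a M n := by
    simp only [Tw]
    rw [← blockDiagonal_add, ← blockDiagonal_sub, ← blockDiagonal_sub]
    rfl
  have f2 : Tw a (fun x => M x * (T x)⁻¹ * M x) n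
      = Tw a M n * (Tw a T n)⁻¹ * Tw a M n := by
    simp only [Tw]
    rw [bdg_inv (fun i => hd _), ← blockDiagonal_mul, ← blockDiagonal_mul]
  have g0 : (Tw a T n + Tw a Np n - Tw a Nm n + Tw a M n).PosSemidef := by
    rw [← f0]; exact bdg_psd fun i => h0 _
  have g1 : (Tw a T n + Tw a Np n - Tw a Nm n - Tw a M n).PosSemidef := by
    rw [← f1]; exact bdg_psd fun i => h1 _
  have sM : (Tw a M n)ᵀ = Tw a M n := by
    simp only [Tw]
    rw [blockDiagonal_transpose]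
    congr 1
    funext i
    exact hM _
  have h := node_wO (T := Tw a T n) (M := Tw a M n) (Np := Tw a Np n) (Nm := Tw a Nm n)
    (bdg_psd fun i => hT _) (bdg_unit fun i => hd _) sM (bdg_psd fun i => hNp _)
    (bdg_psd fun i => hNm _) g0 g1 (Cw a k b n (2 * m)) (Cw a k b n (2 * m + 1)) hμ J
    (by rw [← QW_eq]; exact c0) (by rw [← QW_eq]; exact c1)
  rw [← f0, ← f1, ← f2] at h
  simp only [← QW_eq] at h
  rw [← QW_succ] at h
  exact h

/-- the two halves of a cap -/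
theorem cap_halves (a k : ℕ) (b : ℤ → ℤ → κ → ℝ) (T : ℤ → Matrix κ κ ℝ) (n m : ℤ) {c : ℝ}
    (h : (1 - (c * 2) • QW a (k + 1) b T n m).PosSemidef) :
    (1 - c • QW a k b T n (2 * m)).PosSemidef ∧
      (1 - c • QW a k b T n (2 * m + 1)).PosSemidef := by
  have e : ∀ C₀ C₁ : Matrix (κ × Ix a) (Ix k) ℝ, ∀ W : Matrix (κ × Ix a) (κ × Ix a) ℝ,
      (1 / 2 : ℝ) • ((fromCols C₀ C₁)ᵀ * W * fromCols C₀ C₁) = fromBlocks
        ((1 / 2 : ℝ) • (C₀ᵀ * W * C₀)) ((1 / 2 : ℝ) • (C₀ᵀ * W * C₁))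
        ((1 / 2 : ℝ) • (C₁ᵀ * W * C₀)) ((1 / 2 : ℝ) • (C₁ᵀ * W * C₁)) := by
    intro C₀ C₁ W
    rw [transpose_fromCols, Matrix.fromRows_mul, fromRows_mul_fromCols, fromBlocks_smul]
  have h1 : (1 - (c * 2) • fromBlocks
        ((1 / 2 : ℝ) • QW a k b T n (2 * m))
        ((1 / 2 : ℝ) • ((Cw a k b n (2 * m))ᵀ * Tw a T n * Cw a k b n (2 * m + 1)))
        ((1 / 2 : ℝ) • ((Cw a k b n (2 * m + 1))ᵀ * Tw a T n * Cw a k b n (2 * m)))
        ((1 / 2 : ℝ) • QW a k b T n (2 * m + 1)) :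
        Matrix (Ix k ⊕ Ix k) (Ix k ⊕ Ix k) ℝ).PosSemidef := by
    rw [QW_eq a k b T n (2 * m), QW_eq a k b T n (2 * m + 1), ← e, ← QW_succ]
    exact h
  have s1 := h1.submatrix (Sum.inl : Ix k → Ix k ⊕ Ix k)
  have s2 := h1.submatrix (Sum.inr : Ix k → Ix k ⊕ Ix k)
  refine ⟨?_, ?_⟩
  · refine (?_ : (1 - c • QW a k b T n (2 * m)) = _) ▸ s1
    ext i j
    simp only [Matrix.submatrix_apply, Matrix.sub_apply, Matrix.smul_apply, fromBlocks_apply₁₁,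
      smul_eq_mul, Matrix.one_apply, Sum.inl.injEq]
    ring
  · refine (?_ : (1 - c • QW a k b T n (2 * m + 1)) = _) ▸ s2
    ext i j
    simp only [Matrix.submatrix_apply, Matrix.sub_apply, Matrix.smul_apply, fromBlocks_apply₂₂,
      smul_eq_mul, Matrix.one_apply, Sum.inr.injEq]
    ring

/-- **`H38.mid_P` with operator caps.** -/
theorem mid_PO {N : ℕ} {W Nn M Nm : ℤ → ℕ → ℤ → Matrix κ κ ℝ} (h : Wf N W Nn M Nm)
    (b : ℕ → ℤ → ℤ → κ → ℝ) {μ : ℝ} (hμ : 0 < μ) (J : ℕ) {k a : ℕ} (hk : k < N) (n m : ℤ)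
    (cap : (1 - (μ / 4 ^ J * 2) •
      QW a (k + 1) (b (k + 1)) (fun x => W x (k + 1) m) n m).PosSemidef) :
    SG μ J (XW (b (k + 1)) W (k + 1) a n m)
        + (1 / 4) * SC μ J (rad (Ix k)) (XWs (b (k + 1)) W k a n m)
      ≤ (1 / 2) * (SG μ J (XW (b k) W k a n (2 * m)) + SG μ J (XW (b k) W k a n (2 * m + 1)))
        + pP J W M Nm b k a n m := by
  have pW : ∀ x k m, (W x k m).PosSemidef := fun x k m => (h.pd x k m).posSemidef
  obtain ⟨c0, c1⟩ := cap_halves a k (b (k + 1)) (fun x => W x (k + 1) m) n m cap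
  have w0 : ∀ x, W x (k + 1) m + (Nn x (k + 1) m + Nm x (k + 1) m) - Nm x (k + 1) m
      + M x (k + 1) m = W x k (2 * m) := by
    intro x; rw [h.left x k m hk]; abel
  have w1 : ∀ x, W x (k + 1) m + (Nn x (k + 1) m + Nm x (k + 1) m) - Nm x (k + 1) m
      - M x (k + 1) m = W x k (2 * m + 1) := by
    intro x; rw [h.right x k m hk]; abel
  have key := mid_QWO a k (b (k + 1)) (T := fun x => W x (k + 1) m)
    (M := fun x => M x (k + 1) m) (Np := fun x => Nn x (k + 1) m + Nm x (k + 1) m)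
    (Nm := fun x => Nm x (k + 1) m) (fun x => pW x _ _) (fun x => unit_det (h.pd x _ _))
    (fun x => h.sM x _ _) (fun x => h.pN x _ _) (fun x => h.pNm x _ _)
    (fun x => by rw [w0]; exact pW x _ _) (fun x => by rw [w1]; exact pW x _ _) n m hμ J c0 c1
  simp only [w0, w1] at key
  have s0 := SG_step pW b hμ J a k n (2 * m)
  have s1 := SG_step pW b hμ J a k n (2 * m + 1)
  rw [tr_QW_succ, tr_QW_succ] at key
  have f1 : SG μ J (XW (b (k + 1)) W (k + 1) a n m)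
      = SG μ J (QW a (k + 1) (b (k + 1)) (fun x => W x (k + 1) m) n m) := rfl
  have f2 : SC μ J (rad (Ix k)) (XWs (b (k + 1)) W k a n m)
      = SC (n := Ix k ⊕ Ix k) μ J (rad (Ix k))
        (QW a (k + 1) (b (k + 1)) (fun x => W x (k + 1) m) n m) := rfl
  have f3 : SG μ J (XW (b k) W k a n (2 * m))
      = SG μ J (QW a k (b k) (fun x => W x k (2 * m)) n (2 * m)) := rfl
  have f4 : SG μ J (XW (b k) W k a n (2 * m + 1))
      = SG μ J (QW a k (b k) (fun x => W x k (2 * m + 1)) n (2 * m + 1)) := rfl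
  rw [f1, f2, f3, f4, pP]
  linarith

/-- the cap in the form of the numbers: `X ≤ c` and `t c ≤ 1` -/
theorem cap_of {p : Type*} [Fintype p] [DecidableEq p] {X : Matrix p p ℝ} {c t : ℝ}
    (h : (c • (1 : Matrix p p ℝ) - X).PosSemidef) (ht : 0 ≤ t) (htc : t * c ≤ 1) :
    (1 - t • X).PosSemidef := by
  have h1 := (h.smul ht).add ((PosSemidef.one (n := p) (R := ℝ)).smul
    (show (0 : ℝ) ≤ 1 - t * c by linarith))
  have e : t • (c • (1 : Matrix p p ℝ) - X) + (1 - t * c) • (1 : Matrix p p ℝ) = 1 - t • X := by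
    rw [smul_sub, smul_smul, sub_smul, one_smul]
    abel
  rwa [e] at h1

/-- `μ / 4 ^ J * 2 * c ≤ 1` from `2 c ≤ 4 ^ J * μ⁻¹` -/
theorem lev_of {μ c : ℝ} (hμ : 0 < μ) {J : ℕ} (h : 2 * c ≤ 4 ^ J * μ⁻¹) :
    μ / 4 ^ J * 2 * c ≤ 1 := by
  have h4 : (0 : ℝ) < 4 ^ J := by positivity
  have e : μ / 4 ^ J * 2 * c = μ / 4 ^ J * (2 * c) := by ring
  rw [e]
  refine (mul_le_mul_of_nonneg_left h (div_pos hμ h4).le).trans (le_of_eq ?_)
  field_simp

/-- **The middle step for a path, cap of the stack as a number.** -/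
theorem mid_Pc {N : ℕ} {W Nn M Nm : ℤ → ℕ → ℤ → Matrix κ κ ℝ} (h : Wf N W Nn M Nm)
    (b : ℕ → ℤ → ℤ → κ → ℝ) {μ : ℝ} (hμ : 0 < μ) (J : ℕ) {k a : ℕ} (hk : k < N) (n m : ℤ)
    {c : ℝ} (hc : 2 * c ≤ 4 ^ J * μ⁻¹) (cap : (c • (1 : Matrix (Ix (k + 1)) (Ix (k + 1)) ℝ) -
      XW (b (k + 1)) W (k + 1) a n m).PosSemidef) :
    SG μ J (XW (b (k + 1)) W (k + 1) a n m)
        + (1 / 4) * SC μ J (rad (Ix k)) (XWs (b (k + 1)) W k a n m)
      ≤ (1 / 2) * (SG μ J (XW (b k) W k a n (2 * m)) + SG μ J (XW (b k) W k a n (2 * m + 1)))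
        + pP J W M Nm b k a n m :=
  mid_PO h b hμ J hk n m (cap_of cap (by positivity) (lev_of hμ hc))

end

end Vale.Agent.P141.H204
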