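import Vale.Agent.P141.H204.Rad
import Vale.Agent.P141.H834.CntP
import Vale.Agent.P141.H573.MomP

/-!
# P141, line W: labels on the vertices

* `vec_test`: a function which is uniform against the pair weight is uniform against vector valued
  tests with label sets at the three vertices.
* `mo4v_le`, `mo4t_le`: the fourth Schatten moment of a vector valued gauge, labels on the second
  or on the first vertex.
-/

namespace Vale.Agent.P141.H204

open Finset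
open Vale.Agent.P141.PL.H315 (avg avg_nonneg atm e12 e13 e23)
open Vale.Agent.P141.H550 Vale.Agent.P141.H769 Vale.Agent.P141.H922
open Vale.Agent.P141.H834 (UnifP gf)
open Vale.Agent.P141.H573 (cross_swap)

noncomputable section

section three

variable {Ω : Type*} {Q : Finset Ω}

theorem avg_one_le (Q : Finset Ω) : (avg Q fun _ => (1 : ℝ)) ≤ 1 := by
  rcases Q.eq_empty_or_nonempty with rfl | hQ
  · simp [avg]
  · exact (avg_const hQ 1).le

/-- fourth moments control second moments -/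
theorem avg_sq_of_four {f : Ω → ℝ} {F : ℝ}
    (h : (avg Q fun ω => f ω ^ 4) ≤ 9 * F ^ 4) : (avg Q fun ω => f ω ^ 2) ≤ 3 * F ^ 2 := by
  have h1 := avg_mul_le_sqrt Q (fun ω => f ω ^ 2) fun _ => (1 : ℝ)
  have e1 : (avg Q fun ω => f ω ^ 2 * 1) = avg Q fun ω => f ω ^ 2 := avg_congr fun ω _ => by ring
  have e2 : (avg Q fun ω => (f ω ^ 2) ^ 2) = avg Q fun ω => f ω ^ 4 := avg_congr fun ω _ => by ring
  have e3 : (avg Q fun _ => (1 : ℝ) ^ 2) ≤ 1 := by simpa using avg_one_le Q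
  rw [e1, e2] at h1
  refine h1.trans ?_
  calc √(avg Q fun ω => f ω ^ 4) * √(avg Q fun _ => (1 : ℝ) ^ 2)
      ≤ √(9 * F ^ 4) * √1 :=
        mul_le_mul (Real.sqrt_le_sqrt h) (Real.sqrt_le_sqrt e3) (Real.sqrt_nonneg _)
          (Real.sqrt_nonneg _)
    _ = 3 * F ^ 2 := by
        rw [Real.sqrt_one, mul_one, show 9 * F ^ 4 = (3 * F ^ 2) ^ 2 by ring,
          Real.sqrt_sq (by positivity)]

theorem avg_prod2 {f g : Ω → ℝ} {F G : ℝ}
    (hf : (avg Q fun ω => f ω ^ 4) ≤ 9 * F ^ 4) (hg : (avg Q fun ω => g ω ^ 4) ≤ 9 * G ^ 4) :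
    (avg Q fun ω => (f ω * g ω) ^ 2) ≤ 9 * (F * G) ^ 2 := by
  have h1 := avg_sq_mul_sq_le Q f g (a := F ^ 2) (b := G ^ 2) (K := 9) (by positivity)
    (by positivity) (by norm_num) (hf.trans (le_of_eq (by ring))) (hg.trans (le_of_eq (by ring)))
  refine le_trans (le_of_eq ?_) (h1.trans (le_of_eq (by ring)))
  exact avg_congr fun ω _ => by ring

theorem avg_prod3 {f g h : Ω → ℝ} {F G H : ℝ} (hF : 0 ≤ F) (hG : 0 ≤ G) (hH : 0 ≤ H)
    (hf : (avg Q fun ω => f ω ^ 4) ≤ 9 * F ^ 4) (hg : (avg Q fun ω => g ω ^ 4) ≤ 9 * G ^ 4)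
    (hh : (avg Q fun ω => h ω ^ 4) ≤ 9 * H ^ 4) :
    (avg Q fun ω => f ω * g ω * h ω) ≤ 6 * (F * G * H) := by
  refine (avg_mul_le_sqrt Q (fun ω => f ω * g ω) h).trans ?_
  have h1 := avg_prod2 hf hg
  have h2 := avg_sq_of_four hh
  calc √(avg Q fun ω => (f ω * g ω) ^ 2) * √(avg Q fun ω => h ω ^ 2)
      ≤ √(9 * (F * G) ^ 2) * √(4 * H ^ 2) :=
        mul_le_mul (Real.sqrt_le_sqrt h1)
          (Real.sqrt_le_sqrt (h2.trans (by nlinarith [sq_nonneg H]))) (Real.sqrt_nonneg _)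
          (Real.sqrt_nonneg _)
    _ = 6 * (F * G * H) := by
        rw [show 9 * (F * G) ^ 2 = (3 * (F * G)) ^ 2 by ring,
          show 4 * H ^ 2 = (2 * H) ^ 2 by ring, Real.sqrt_sq (by positivity),
          Real.sqrt_sq (by positivity)]
        ring

theorem avg_nN_four {X : Type*} {P : Finset X} {f : Ω → X → ℝ} {g : X → ℝ}
    (h2 : (avg Q fun ω => n2 P (f ω) ^ 4) ≤ 9 * n2 P g ^ 4)
    (h4 : (avg Q fun ω => n4 P (f ω) ^ 4) ≤ 9 * n4 P g ^ 4) :
    (avg Q fun ω => nN P (f ω) ^ 4) ≤ 9 * nN P g ^ 4 := by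
  have h := avg_prod2 h2 h4
  have e : ∀ f : X → ℝ, nN P f ^ 4 = (n2 P f * n4 P f) ^ 2 := fun f => by
    rw [show nN P f ^ 4 = (nN P f ^ 2) ^ 2 by ring, nN_sq]
  rw [e g]
  refine le_trans (le_of_eq ?_) h
  exact avg_congr fun ω _ => e _

end three

section scalar

variable {κ X : Type*} [Fintype κ] [DecidableEq κ]

theorem n4_abs' (Q : Finset X) {f g : X → ℝ} (h : ∀ x, f x ^ 2 = g x ^ 2) : n4 Q f = n4 Q g := by
  unfold n4
  congr 2
  refine avg_congr fun x _ => ?_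
  rw [show f x ^ 4 = (f x ^ 2) ^ 2 by ring, h, ← pow_mul]

theorem n2_abs' (Q : Finset X) {f g : X → ℝ} (h : ∀ x, f x ^ 2 = g x ^ 2) : n2 Q f = n2 Q g := by
  unfold n2
  congr 1
  exact avg_congr fun x _ => h x

theorem avg_n4_rv (Q : Finset X) (f : κ → X → ℝ) :
    (avg univ fun ε => n4 Q (fun x => rv (fun l => f l x) ε) ^ 4) ≤ 3 * n4 Q (vn f) ^ 4 := by
  have h := avg_n4_rf Q (fun (_ : Unit) => f)
  rw [n4_abs' Q (g := vn f) fun x =>
    (vn_prod_sq (fun (_ : Unit) => f) x).trans (by rw [vn_sq]; simp)] at h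
  refine le_trans (le_of_eq ?_) h
  refine avg_congr fun ε _ => ?_
  rw [n4_abs' Q (f := vn (rf (fun (_ : Unit) => f) ε)) (g := fun x => rv (fun l => f l x) ε)
    fun x => by rw [vn_sq]; simp [rf]]

theorem avg_n2_rv (Q : Finset X) (f : κ → X → ℝ) :
    (avg univ fun ε => n2 Q (fun x => rv (fun l => f l x) ε) ^ 4) ≤ 3 * n2 Q (vn f) ^ 4 := by
  have h := avg_n2_rf Q (fun (_ : Unit) => f)
  rw [n2_abs' Q (g := vn f) fun x =>
    (vn_prod_sq (fun (_ : Unit) => f) x).trans (by rw [vn_sq]; simp)] at h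
  refine le_trans (le_of_eq ?_) h
  refine avg_congr fun ε _ => ?_
  rw [n2_abs' Q (f := vn (rf (fun (_ : Unit) => f) ε)) (g := fun x => rv (fun l => f l x) ε)
    fun x => by rw [vn_sq]; simp [rf]]

end scalar

section double

variable {κ κ' X : Type*} [Fintype κ] [DecidableEq κ] [Fintype κ'] [DecidableEq κ']

/-- the scalar random function: signs on both labels -/
def dv (a : κ → κ' → X → ℝ) (ε : κ → Bool) (δ : κ' → Bool) (x : X) : ℝ :=
  rv (fun m => rv (fun l => a l m x) ε) δ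

/-- the Euclidean norm over two labels -/
def vn2 (a : κ → κ' → X → ℝ) (x : X) : ℝ := vn (fun (p : κ × κ') x => a p.1 p.2 x) x

omit [DecidableEq κ] [DecidableEq κ'] in
theorem vn2_sq (a : κ → κ' → X → ℝ) (x : X) : vn2 a x ^ 2 = ∑ l, ∑ m, a l m x ^ 2 :=
  vn_prod_sq a x

omit [DecidableEq κ] [DecidableEq κ'] in
theorem vn2_swap_sq (a : κ → κ' → X → ℝ) (x : X) :
    vn (fun (p : κ' × κ) x => a p.2 p.1 x) x ^ 2 = vn2 a x ^ 2 := by
  rw [vn2_sq, vn_sq, Fintype.sum_prod_type, sum_comm]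

theorem avg_n4_dv (Q : Finset X) (a : κ → κ' → X → ℝ) :
    (avg univ fun ε => avg univ fun δ => n4 Q (dv a ε δ) ^ 4) ≤ 9 * n4 Q (vn2 a) ^ 4 := by
  have h1 : ∀ ε : κ → Bool, (avg univ fun δ => n4 Q (dv a ε δ) ^ 4) ≤
      3 * n4 Q (vn (rf (fun m l => a l m) ε)) ^ 4 := fun ε =>
    avg_n4_rv Q (fun m x => rv (fun l => a l m x) ε)
  refine (avg_mono fun ε _ => h1 ε).trans ?_
  rw [avg_mul_left]
  have h2 := avg_n4_rf Q (fun m l => a l m)
  rw [n4_abs' Q (g := vn2 a) fun x => vn2_swap_sq a x] at h2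
  linarith

theorem avg_n2_dv (Q : Finset X) (a : κ → κ' → X → ℝ) :
    (avg univ fun ε => avg univ fun δ => n2 Q (dv a ε δ) ^ 4) ≤ 9 * n2 Q (vn2 a) ^ 4 := by
  have h1 : ∀ ε : κ → Bool, (avg univ fun δ => n2 Q (dv a ε δ) ^ 4) ≤
      3 * n2 Q (vn (rf (fun m l => a l m) ε)) ^ 4 := fun ε =>
    avg_n2_rv Q (fun m x => rv (fun l => a l m x) ε)
  refine (avg_mono fun ε _ => h1 ε).trans ?_
  rw [avg_mul_left]
  have h2 := avg_n2_rf Q (fun m l => a l m)
  rw [n2_abs' Q (g := vn2 a) fun x => vn2_swap_sq a x] at h2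
  linarith

end double

section test

variable {κ1 κ2 κ3 : Type*} [Fintype κ1] [DecidableEq κ1] [Fintype κ2] [DecidableEq κ2]
  [Fintype κ3] [DecidableEq κ3]

/-- the sign average of the product of the three random edges -/
theorem avg_dv_three {X Y Z : Type*} (a : κ1 → κ2 → X → ℝ) (b : κ1 → κ3 → Y → ℝ)
    (c : κ2 → κ3 → Z → ℝ) (x : X) (y : Y) (z : Z) :
    (avg univ fun ε => avg univ fun δ => avg univ fun γ =>
      dv a ε δ x * dv b ε γ y * dv c δ γ z) =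
      ∑ l, ∑ m, ∑ n, a l m x * b l n y * c m n z := by
  have h1 : ∀ (ε : κ1 → Bool) (δ : κ2 → Bool), (avg univ fun γ =>
      dv a ε δ x * dv b ε γ y * dv c δ γ z) =
      dv a ε δ x * ∑ n, rv (fun l => b l n y) ε * rv (fun m => c m n z) δ := by
    intro ε δ
    rw [← avg_rv_mul, ← avg_mul_left]
    exact avg_congr fun γ _ => by unfold dv; ring
  have h2 : ∀ ε : κ1 → Bool, (avg univ fun δ =>
      dv a ε δ x * ∑ n, rv (fun l => b l n y) ε * rv (fun m => c m n z) δ) =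
      ∑ n, ∑ m, c m n z * (rv (fun l => a l m x) ε * rv (fun l => b l n y) ε) := by
    intro ε
    have e1 : ∀ δ : κ2 → Bool, dv a ε δ x * ∑ n, rv (fun l => b l n y) ε * rv (fun m => c m n z) δ =
        ∑ n, rv (fun l => b l n y) ε *
          (rv (fun m => rv (fun l => a l m x) ε) δ * rv (fun m => c m n z) δ) := by
      intro δ
      rw [mul_sum]
      exact sum_congr rfl fun n _ => by unfold dv; ring
    rw [avg_congr fun δ _ => e1 δ, avg_sum]
    refine sum_congr rfl fun n _ => ?_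
    rw [avg_mul_left, avg_rv_mul, mul_sum]
    exact sum_congr rfl fun m _ => by ring
  rw [avg_congr fun ε _ => (avg_congr fun δ _ => h1 ε δ).trans (h2 ε), avg_sum]
  have h3 : ∀ n, (avg univ fun ε => ∑ m, c m n z *
      (rv (fun l => a l m x) ε * rv (fun l => b l n y) ε)) =
      ∑ m, ∑ l, a l m x * b l n y * c m n z := by
    intro n
    rw [avg_sum]
    refine sum_congr rfl fun m _ => ?_
    rw [avg_mul_left, avg_rv_mul, mul_sum]
    exact sum_congr rfl fun l _ => by ring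
  rw [sum_congr rfl fun n _ => h3 n]
  calc ∑ n, ∑ m, ∑ l, a l m x * b l n y * c m n z
      = ∑ n, ∑ l, ∑ m, a l m x * b l n y * c m n z := sum_congr rfl fun n _ => sum_comm
    _ = ∑ l, ∑ n, ∑ m, a l m x * b l n y * c m n z := sum_comm
    _ = _ := sum_congr rfl fun l _ => sum_comm

/-- **Vector valued tests**, labels on the three vertices. -/
theorem vec_test {d : ℝ} (hd : 0 ≤ d) {A B C : Finset ℤ} {G : ℤ × ℤ × ℤ → ℝ}
    (hU : UnifP d A B C G) (a : κ1 → κ2 → ℤ × ℤ → ℝ) (b : κ1 → κ3 → ℤ × ℤ → ℝ)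
    (c : κ2 → κ3 → ℤ × ℤ → ℝ) :
    |avg (A ×ˢ B ×ˢ C) fun q => G q *
      ∑ l, ∑ m, ∑ n, a l m (q.1, q.2.1) * b l n (q.1, q.2.2) * c m n (q.2.1, q.2.2)| ≤
    6 * d * (nN (A ×ˢ B) (vn2 a) * nN (A ×ˢ C) (vn2 b) * n2 (B ×ˢ C) (vn2 c) +
      nN (A ×ˢ B) (vn2 a) * nN (B ×ˢ C) (vn2 c) * n2 (A ×ˢ C) (vn2 b) +
      nN (A ×ˢ C) (vn2 b) * nN (B ×ˢ C) (vn2 c) * n2 (A ×ˢ B) (vn2 a)) := by
  set S : Finset ((κ1 → Bool) × (κ2 → Bool) × (κ3 → Bool)) := univ ×ˢ (univ ×ˢ univ) with hS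
  -- the fourth moments over the three families of signs
  have ma : ∀ F : (κ1 → Bool) → (κ2 → Bool) → ℝ,
      (avg S fun ω => F ω.1 ω.2.1) = avg univ fun ε => avg univ fun δ => F ε δ := by
    intro F
    rw [hS, avg_prod]
    refine avg_congr fun ε _ => ?_
    rw [avg_prod]
    exact avg_congr fun δ _ => avg_const univ_nonempty (F ε δ)
  have mb : ∀ F : (κ1 → Bool) → (κ3 → Bool) → ℝ,
      (avg S fun ω => F ω.1 ω.2.2) = avg univ fun ε => avg univ fun γ => F ε γ := by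
    intro F
    rw [hS, avg_prod]
    refine avg_congr fun ε _ => ?_
    rw [avg_prod]
    exact avg_const univ_nonempty (avg univ fun γ => F ε γ)
  have mc : ∀ F : (κ2 → Bool) → (κ3 → Bool) → ℝ,
      (avg S fun ω => F ω.2.1 ω.2.2) = avg univ fun δ => avg univ fun γ => F δ γ := by
    intro F
    rw [hS, avg_prod]
    have : ∀ ε ∈ (univ : Finset (κ1 → Bool)), (avg (univ ×ˢ univ) fun y : (κ2 → Bool) × (κ3 → Bool) =>
        F (ε, y).2.1 (ε, y).2.2) = avg univ fun δ => avg univ fun γ => F δ γ := fun ε _ => by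
      rw [avg_prod]
    rw [avg_congr this]
    exact avg_const univ_nonempty _
  have a4 := (ma fun ε δ => n4 (A ×ˢ B) (dv a ε δ) ^ 4).le.trans (avg_n4_dv (A ×ˢ B) a)
  have a2 := (ma fun ε δ => n2 (A ×ˢ B) (dv a ε δ) ^ 4).le.trans (avg_n2_dv (A ×ˢ B) a)
  have b4 := (mb fun ε δ => n4 (A ×ˢ C) (dv b ε δ) ^ 4).le.trans (avg_n4_dv (A ×ˢ C) b)
  have b2 := (mb fun ε δ => n2 (A ×ˢ C) (dv b ε δ) ^ 4).le.trans (avg_n2_dv (A ×ˢ C) b)
  have c4 := (mc fun ε δ => n4 (B ×ˢ C) (dv c ε δ) ^ 4).le.trans (avg_n4_dv (B ×ˢ C) c)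
  have c2 := (mc fun ε δ => n2 (B ×ˢ C) (dv c ε δ) ^ 4).le.trans (avg_n2_dv (B ×ˢ C) c)
  have aN := avg_nN_four (f := fun ω : (κ1 → Bool) × (κ2 → Bool) × (κ3 → Bool) => dv a ω.1 ω.2.1)
    a2 a4
  have bN := avg_nN_four (f := fun ω : (κ1 → Bool) × (κ2 → Bool) × (κ3 → Bool) => dv b ω.1 ω.2.2)
    b2 b4
  have cN := avg_nN_four (f := fun ω : (κ1 → Bool) × (κ2 → Bool) × (κ3 → Bool) => dv c ω.2.1 ω.2.2)
    c2 c4
  have k1 := avg_prod3 (nN_nonneg _ _) (nN_nonneg _ _) (n2_nonneg _ _) aN bN c2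
  have k2 := avg_prod3 (nN_nonneg _ _) (nN_nonneg _ _) (n2_nonneg _ _) aN cN b2
  have k3 := avg_prod3 (nN_nonneg _ _) (nN_nonneg _ _) (n2_nonneg _ _) bN cN a2
  -- the test as an average of scalar tests
  have e1 : (avg (A ×ˢ B ×ˢ C) fun q => G q *
      ∑ l, ∑ m, ∑ n, a l m (q.1, q.2.1) * b l n (q.1, q.2.2) * c m n (q.2.1, q.2.2)) =
      avg S fun ω => avg (A ×ˢ B ×ˢ C) fun q =>
        G q * atm (dv a ω.1 ω.2.1, dv b ω.1 ω.2.2, dv c ω.2.1 ω.2.2) q := by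
    rw [avg_comm S]
    refine avg_congr fun q _ => ?_
    rw [avg_mul_left, ← avg_dv_three]
    congr 1
    rw [hS, avg_prod]
    refine avg_congr fun ε _ => ?_
    rw [avg_prod]
    rfl
  rw [e1]
  refine (abs_avg_le _ _).trans ((avg_mono fun ω _ => hU _).trans ?_)
  rw [avg_mul_left, avg_add, avg_add]
  have := mul_le_mul_of_nonneg_left (add_le_add (add_le_add k1 k2) k3) hd
  refine this.trans (le_of_eq ?_)
  ring

end test

section moment

variable {κ : Type*} [Fintype κ]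

/-- fourth Schatten moment of the slices of a vector valued gauge, labels on the second vertex -/
def mo4v (A B C : Finset ℤ) (u : κ → ℤ → ℤ → ℝ) (G : ℤ × ℤ × ℤ → ℝ) : ℝ :=
  avg C fun z => avg A fun x => avg A fun c => (∑ l, g2 B (sl (u l) G z) x c) ^ 2

/-- fourth Schatten moment of the slices of a vector valued gauge, labels on the first vertex -/
def mo4t (A B C : Finset ℤ) (u : κ → ℤ → ℤ → ℝ) (G : ℤ × ℤ × ℤ → ℝ) : ℝ :=
  avg C fun z => avg B fun y => avg B fun y' =>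
    (∑ l, avg A fun x => sl (u l) G z x y * sl (u l) G z x y') ^ 2

theorem mo4_swap (A B C : Finset ℤ) (a : ℤ → ℤ → ℝ) (G : ℤ × ℤ × ℤ → ℝ) :
    mo4 A B C a G = avg C fun z => avg B fun y => avg B fun y' =>
      (avg A fun x => sl a G z x y * sl a G z x y') ^ 2 := by
  unfold mo4 g2
  refine avg_congr fun z _ => ?_
  rw [cross_swap A B (sl a G z) (sl a G z)]
  exact avg_congr fun y _ => avg_congr fun y' _ => by rw [sq]

variable [DecidableEq κ]

/-- Jensen over the signs -/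
theorem sq_avg_le_avg_sq {Ω : Type*} (Q : Finset Ω) (f : Ω → ℝ) :
    (avg Q f) ^ 2 ≤ avg Q fun ω => f ω ^ 2 := by
  have h := avg_mul_sq_le Q (fun _ => (1 : ℝ)) f
  have e1 : (avg Q fun ω => (1 : ℝ) * f ω) = avg Q f := avg_congr fun ω _ => one_mul _
  have e3 : (avg Q fun _ => (1 : ℝ) ^ 2) ≤ 1 := by simpa using avg_one_le Q
  rw [e1] at h
  have h0 : 0 ≤ avg Q fun ω => f ω ^ 2 := avg_nonneg fun _ _ => sq_nonneg _
  nlinarith

/-- the random scalar gauge -/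
def ru (u : κ → ℤ → ℤ → ℝ) (ε : κ → Bool) (x y : ℤ) : ℝ := rv (fun l => u l x y) ε

theorem mo4v_le_avg (A B C : Finset ℤ) (u : κ → ℤ → ℤ → ℝ) (G : ℤ × ℤ × ℤ → ℝ) :
    mo4v A B C u G ≤ avg univ fun ε => mo4 A B C (ru u ε) G := by
  unfold mo4v mo4
  rw [avg_comm univ C]
  refine avg_mono fun z _ => ?_
  rw [avg_comm univ A]
  refine avg_mono fun x _ => ?_
  rw [avg_comm univ A]
  refine avg_mono fun c _ => ?_
  refine le_trans (le_of_eq ?_) (sq_avg_le_avg_sq _ _)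
  congr 1
  unfold g2
  rw [avg_comm univ B, ← avg_sum]
  refine avg_congr fun y _ => ?_
  have e : ∀ ε : κ → Bool, sl (ru u ε) G z x y * sl (ru u ε) G z c y =
      (G (x, y, z) * G (c, y, z)) * (rv (fun l => u l x y) ε * rv (fun l => u l c y) ε) := by
    intro ε; unfold sl ru; ring
  rw [avg_congr fun ε _ => e ε, avg_mul_left, avg_rv_mul, mul_sum]
  exact sum_congr rfl fun l _ => by unfold sl; ring

theorem mo4t_le_avg (A B C : Finset ℤ) (u : κ → ℤ → ℤ → ℝ) (G : ℤ × ℤ × ℤ → ℝ) :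
    mo4t A B C u G ≤ avg univ fun ε => mo4 A B C (ru u ε) G := by
  rw [avg_congr fun ε _ => mo4_swap A B C (ru u ε) G]
  unfold mo4t
  rw [avg_comm univ C]
  refine avg_mono fun z _ => ?_
  rw [avg_comm univ B]
  refine avg_mono fun y _ => ?_
  rw [avg_comm univ B]
  refine avg_mono fun y' _ => ?_
  refine le_trans (le_of_eq ?_) (sq_avg_le_avg_sq _ _)
  congr 1
  rw [avg_comm univ A, ← avg_sum]
  refine avg_congr fun x _ => ?_
  have e : ∀ ε : κ → Bool, sl (ru u ε) G z x y * sl (ru u ε) G z x y' =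
      (G (x, y, z) * G (x, y', z)) * (rv (fun l => u l x y) ε * rv (fun l => u l x y') ε) := by
    intro ε; unfold sl ru; ring
  rw [avg_congr fun ε _ => e ε, avg_mul_left, avg_rv_mul, mul_sum]
  exact sum_congr rfl fun l _ => by unfold sl; ring

/-- the weight of the random gauge -/
theorem avg_ru_le (A B : Finset ℤ) (u : κ → ℤ → ℤ → ℝ) :
    (avg univ fun ε => n2 (A ×ˢ B) (gf (ru u ε)) ^ 2 * n4 (A ×ˢ B) (gf (ru u ε)) ^ 2) ≤
      3 * (n2 (A ×ˢ B) (vn fun l r => u l r.1 r.2) ^ 2 *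
        n4 (A ×ˢ B) (vn fun l r => u l r.1 r.2) ^ 2) := by
  have h4 := avg_n4_rv (A ×ˢ B) (fun l (r : ℤ × ℤ) => u l r.1 r.2)
  have h2 := avg_n2_rv (A ×ˢ B) (fun l (r : ℤ × ℤ) => u l r.1 r.2)
  exact avg_sq_mul_sq_le univ (fun ε => n2 (A ×ˢ B) (gf (ru u ε)))
    (fun ε => n4 (A ×ˢ B) (gf (ru u ε))) (a := n2 (A ×ˢ B) (vn fun l r => u l r.1 r.2) ^ 2)
    (b := n4 (A ×ˢ B) (vn fun l r => u l r.1 r.2) ^ 2) (K := 3) (by positivity) (by positivity)
    (by norm_num) (h2.trans (le_of_eq (by ring))) (h4.trans (le_of_eq (by ring)))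

/-- **The fourth Schatten moment of a vector valued gauge** (labels on the second vertex). -/
theorem mo4v_le {A B C : Finset ℤ} {G : ℤ × ℤ × ℤ → ℝ} {k : ℝ} (hk0 : 0 ≤ k)
    (hk : ∀ a : ℤ → ℤ → ℝ, mo4 A B C a G ≤
      k * (n2 (A ×ˢ B) (gf a) ^ 2 * n4 (A ×ˢ B) (gf a) ^ 2)) (u : κ → ℤ → ℤ → ℝ) :
    mo4v A B C u G ≤ 3 * k * (n2 (A ×ˢ B) (vn fun l r => u l r.1 r.2) ^ 2 *
      n4 (A ×ˢ B) (vn fun l r => u l r.1 r.2) ^ 2) := by
  refine (mo4v_le_avg A B C u G).trans ((avg_mono fun ε _ => hk _).trans ?_)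
  rw [avg_mul_left]
  refine (mul_le_mul_of_nonneg_left (avg_ru_le A B u) hk0).trans (le_of_eq ?_)
  ring

/-- **The fourth Schatten moment of a vector valued gauge** (labels on the first vertex). -/
theorem mo4t_le {A B C : Finset ℤ} {G : ℤ × ℤ × ℤ → ℝ} {k : ℝ} (hk0 : 0 ≤ k)
    (hk : ∀ a : ℤ → ℤ → ℝ, mo4 A B C a G ≤
      k * (n2 (A ×ˢ B) (gf a) ^ 2 * n4 (A ×ˢ B) (gf a) ^ 2)) (u : κ → ℤ → ℤ → ℝ) :
    mo4t A B C u G ≤ 3 * k * (n2 (A ×ˢ B) (vn fun l r => u l r.1 r.2) ^ 2 *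
      n4 (A ×ˢ B) (vn fun l r => u l r.1 r.2) ^ 2) := by
  refine (mo4t_le_avg A B C u G).trans ((avg_mono fun ε _ => hk _).trans ?_)
  rw [avg_mul_left]
  refine (mul_le_mul_of_nonneg_left (avg_ru_le A B u) hk0).trans (le_of_eq ?_)
  ring

end moment

end

end Vale.Agent.P141.H204
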