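import Vale.Agent.P141.H401.CutUV
import Vale.Agent.P141.H816.MkFD
import Vale.Agent.P141.H939.PriceB

/-!
# P141, line (A): bundles and prices for the data with small fibres of `u` and of `v`

* `WF D` : the bundle `D` together with `FibU` and `FibP`; `FDU = WF FD`, `mk_FDU`, `cst_FDU`,
  `leafMU`;
* `CStF T` : the price of a functional of the cut families when the fibres are small;
  `CStF.toUV : CStF T → CStUV DuS DvS T`.
-/

namespace Vale.Agent.P141.H204.Fib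

open Finset Matrix
open Vale.Agent.P141.PL (Pt iv hs ix mem_iv cx)
open Vale.Agent.P141.PL.H315 (Tri)
open Vale.Agent.P141.H48 (US ES BSl sst)
open Vale.Agent.P141.H305 (Cls ClsM kapM)
open Vale.Agent.P141.H401
open Vale.Agent.P141.H677.Sk (FD FM1 fM)

noncomputable section

open scoped Classical

/-- **The bundle `D` for data with small fibres of `u` and of `v`.** -/
def WF (D : Bun) : Bun := fun ι _ _ p n ez F1 F2 F3 o K x s r U g u v A b C =>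
  FibU p K x s r U u ∧ FibP p K x s r U v ∧ D ι p n ez F1 F2 F3 o K x s r U g u v A b C

/-- the bundle of the flow part with the fibres of `u` and of `v` -/
def FDU : Bun := WF FD

theorem MkFU.wf {D : Bun} (H : MkFU D) : MkFU (WF D) := by
  unfold MkFU PartQ at H ⊢
  refine PartY.mono H ?_
  intro ι _ _ p n ez F1 F2 F3 o K x s r U g u v B _ _ _ _ _ _ k1 Q1 Q2 Q3 q1 q2 q3 f1 f2
  exact ⟨f1, f2, k1 Q1 Q2 Q3 q1 q2 q3 f1 f2⟩

/-- **The maker.** -/
theorem mk_FDU : MkFU FDU := MkFU.wf H816.mk_FD.toFU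

/-- **Maker and part** -/
theorem cst_FDU {T : FunF} (H : PartF FDU T) : CStUV DuS DvS T := CStUV.of_mkFU mk_FDU H

/-- a part for `D` is a part for `WF D` -/
theorem PartF.wf {D : Bun} {T : FunF} (H : PartF D T) : PartF (WF D) T :=
  PartF.weaken H fun ι _ _ p n ez F1 F2 F3 o K x s r U g u v A b C hD => hD.2.2

/-- the node forms with the price of one slot, any bundle -/
theorem partF_fM_of_B {D : Bun}
    (H : H939.PriceB D fun _ι _ _ K M R A b C h j e => FM1 K M R A b C h j e) : PartF D fM :=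
  H677.Sk.partF_fM (H939.partG_of_priceB H677.Sk.subT_FM1 H)

/-- **The price of one slot, bundle with the fibres.** -/
theorem leafMU (H : H939.PriceB FDU fun _ι _ _ K M R A b C h j e => FM1 K M R A b C h j e) :
    PartF FDU fM :=
  partF_fM_of_B H

/-- **The same as a price of the cut families.** -/
theorem cst_fMU (H : H939.PriceB FDU fun _ι _ _ K M R A b C h j e => FM1 K M R A b C h j e) :
    CStUV DuS DvS fM :=
  cst_FDU (leafMU H)

/-- **The price of a functional of the cut families of data with small fibres.** -/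
def CStF (T : FunF) : Prop :=
  PartQ fun ι _ _ p _n _ez F1 F2 F3 o K x s r U _g u v Q1 _Q2 Q3 B =>
    FibU p K x s r U u → FibP p K x s r U v →
    ∀ sg : ℕ → Pt → ℝ, (∀ k m, |sg k m| ≤ 1) →
      T ι (p.lam s r) o (p.al U K) K x u (cA p s r U K _g F1 Q1) (cb p s r U K u F3 Q3)
        (mC p U K v F2) sg ≤ B

theorem CSt.toF {T : FunF} (H : CSt T) : CStF T := by
  unfold CSt PartQ at H
  unfold CStF PartQ
  refine PartY.mono H ?_
  intro ι _ _ p n ez F1 F2 F3 o K x s r U g u v B _ _ _ _ _ _ k1 Q1 Q2 Q3 q1 q2 q3 _ _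
  exact k1 Q1 Q2 Q3 q1 q2 q3

/-- **Prices with small fibres serve the data with the dense fibres cut off.** -/
theorem CStF.toUV {T : FunF} (H : CStF T) : CStUV DuS DvS T := by
  unfold CStF PartQ at H
  unfold CStUV PartQ
  intro a ha ha1
  obtain ⟨es, hes, H⟩ := H a ha ha1
  refine ⟨es, hes, fun e0 he0 he0' => ?_⟩
  obtain ⟨k8s, hk8s, H⟩ := H e0 he0 he0'
  refine ⟨k8s, hk8s, fun k8 hk8 hk8' => ?_⟩
  obtain ⟨k3s, hk3s, H⟩ := H k8 hk8 hk8'
  refine ⟨k3s, hk3s, fun k3 hk3 hk3' => ?_⟩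
  obtain ⟨gam, c1, d0, del, hgam, hc1, hd0, hdel, H⟩ := H k3 hk3 hk3'
  refine ⟨gam, c1, min d0 8, del, hgam, hc1, lt_min hd0 (by norm_num), hdel,
    fun c hc hcc d hd hdd Kt e cP L hK he hcP hL => ?_⟩
  obtain ⟨CD, hCD, C, hC, H⟩ := H c hc hcc d hd (hdd.trans (min_le_left _ _)) Kt e cP L hK he hcP hL
  refine ⟨CD, hCD, C, hC, ?_⟩
  intro t ht ht1 n ez F1 F2 F3 h1 h3 h2 o ho K hKn x ι _ _ s r U g u v hs hr hcls Q1 Q2 Q3 q1 q2 q3
  have hcl2 := ClsM_loU (DuS ι ⟨a, e0, k8, k3, c, d, Kt, e, cP, L, CD, t⟩ K x s r U u)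
    (ClsM_lo (DvS ι ⟨a, e0, k8, k3, c, d, Kt, e, cP, L, CD, t⟩ K x s r U v) hcls)
  refine H t ht ht1 n ez F1 F2 F3 h1 h3 h2 o ho K hKn x ι s r U g _ _ hs hr hcl2
    Q1 Q2 Q3 q1 q2 q3 ?_ ?_
  · exact fib_DuS (p := ⟨a, e0, k8, k3, c, d, Kt, e, cP, L, CD, t⟩) ht ht1 hd.le
      (hdd.trans (min_le_right _ _)) hs hr hcls
  · exact fib_DvS (p := ⟨a, e0, k8, k3, c, d, Kt, e, cP, L, CD, t⟩) ht ht1 hd.le
      (hdd.trans (min_le_right _ _)) hs hr hcls

/-- a smaller functional -/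
theorem CStF.le {T T' : FunF} (H : CStF T)
    (h : ∀ (ι : Type) [Fintype ι] [DecidableEq ι] (l : ℝ) (o : ℤ) (Al : ℕ → Pt → Prop) (K : ℕ)
      (x : Pt) (u : ℤ → ℤ → ι → ℝ) (A : ℤ → ℕ → ℤ → ℤ → ℝ) (b C : ℤ → ℕ → ℤ → ℤ → ι → ℝ)
      (sg : ℕ → Pt → ℝ), T' ι l o Al K x u A b C sg ≤ T ι l o Al K x u A b C sg) : CStF T' := by
  unfold CStF PartQ at H ⊢
  refine PartY.mono H ?_
  intro ι _ _ p n ez F1 F2 F3 o K x s r U g u v B _ _ _ _ _ _ k1 Q1 Q2 Q3 q1 q2 q3 f1 f2 sg hsg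
  exact (h ..).trans (k1 Q1 Q2 Q3 q1 q2 q3 f1 f2 sg hsg)

/-- **Two prices together.** -/
theorem CStF.add {T1 T2 T : FunF} (H1 : CStF T1) (H2 : CStF T2)
    (h : ∀ (ι : Type) [Fintype ι] [DecidableEq ι] (l : ℝ) (o : ℤ) (Al : ℕ → Pt → Prop) (K : ℕ)
      (x : Pt) (u : ℤ → ℤ → ι → ℝ) (A : ℤ → ℕ → ℤ → ℤ → ℝ) (b C : ℤ → ℕ → ℤ → ℤ → ι → ℝ)
      (sg : ℕ → Pt → ℝ), T ι l o Al K x u A b C sg ≤
        T1 ι l o Al K x u A b C sg + T2 ι l o Al K x u A b C sg) : CStF T := by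
  unfold CStF PartQ at H1 H2 ⊢
  exact PartQ.add H1 H2
    (fun ι _ _ p CD n ez F1 F2 F3 o K x s r U g u v B h => h)
    (fun ι _ _ p CD n ez F1 F2 F3 o K x s r U g u v B h => h)
    (fun ι _ _ p n ez F1 F2 F3 o K x s r U g u v B1 B2 B _ _ _ _ k1 k2 k3 Q1 Q2 Q3 q1 q2 q3
      f1 f2 sg hsg =>
      (h ..).trans ((add_le_add (k1 Q1 Q2 Q3 q1 q2 q3 f1 f2 sg hsg)
        (k2 Q1 Q2 Q3 q1 q2 q3 f1 f2 sg hsg)).trans k3))

/-- **maker and part** -/
theorem CStF.of_mk {D : Bun} {T : FunF} (H1 : MkFU D) (H2 : PartF D T) : CStF T := by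
  unfold MkFU PartQ at H1
  unfold PartF at H2
  unfold CStF PartQ
  refine PartY.addX H1 H2 ?_
  intro ι _ _ p n ez F1 F2 F3 o K x s r U g u v B1 B2 B _ _ _ _ z1 _ k1 k2 k3 Q1 Q2 Q3 q1 q2 q3
    f1 f2 sg hsg
  exact (k2 _ _ _ (k1 Q1 Q2 Q3 q1 q2 q3 f1 f2) sg hsg).trans (by linarith)

end

end Vale.Agent.P141.H204.Fib
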