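import Vale.Agent.P141.H204.FibD
import Vale.Agent.P141.H408.SkelTI2

/-!
# P141, line (A): number leaves of the increasing part for the data with small fibres

`PairQF Φ` : 408's `PairQ` with the hypotheses `FibU`, `FibP`; `PairQ.toF`, `PairQF.and`,
`PairQF.mono`.
-/

namespace Vale.Agent.P141.H204.Fib

open Finset Matrix
open Vale.Agent.P141.PL (Pt iv hs ix mem_iv cx)
open Vale.Agent.P141.PL.H315 (Tri)
open Vale.Agent.P141.H48 (US ES BSl sst)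
open Vale.Agent.P141.H305 (Cls ClsM kapM)
open Vale.Agent.P141.H401
open Vale.Agent.P141.H408 (PairQ MonoQ)

noncomputable section

open scoped Classical

/-- the leaf for data with small fibres of `u` and of `v` -/
def withF (Φ : StQ) : StQ := fun ι _ _ p n ez F1 F2 F3 o K x s r U g u v Q1 Q2 Q3 X =>
  FibU p K x s r U u → FibP p K x s r U v →
    Φ ι p n ez F1 F2 F3 o K x s r U g u v Q1 Q2 Q3 X

/-- **Numbers of the cut families, data with small fibres.** -/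
def PairQF (Φ : StQ) : Prop := PairQ (withF Φ)

/-- **Change of the statement.** -/
theorem PairQ.mono {Φ1 Φ : StQ} (H1 : PairQ Φ1)
    (h : ∀ (ι : Type) [Fintype ι] [DecidableEq ι] (p : H401.Num) (n : ℕ) (ez : ℝ)
      (F1 F2 F3 : ℕ → Pt → ℝ) (o : ℤ) (K : ℕ) (x : Pt) (s r : ℝ) (U : Tri) (g : ℤ → ℤ → ℝ)
      (u v : ℤ → ℤ → ι → ℝ) (Q1 Q2 Q3 : ℕ → Pt → Prop) (X : ℝ), 0 < p.t → p.t ≤ 1 → 0 < s →
      1 ≤ r → o = 1 ∨ o = -1 → 0 < ez →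
      Φ1 ι p n ez F1 F2 F3 o K x s r U g u v Q1 Q2 Q3 X →
      Φ ι p n ez F1 F2 F3 o K x s r U g u v Q1 Q2 Q3 X) : PairQ Φ := by
  intro a ha ha1
  obtain ⟨es1, hes1, H1⟩ := H1 a ha ha1
  refine ⟨es1, hes1, fun e0 he0 he0' => ?_⟩
  obtain ⟨k81, hk81, H1⟩ := H1 e0 he0 he0'
  refine ⟨k81, hk81, fun k8 hk8 hk8' => ?_⟩
  obtain ⟨k31, hk31, H1⟩ := H1 k8 hk8 hk8'
  refine ⟨k31, hk31, fun k3 hk3 hk3' δ hδ => ?_⟩
  obtain ⟨c1, d1, hc1, hd1, H1⟩ := H1 k3 hk3 hk3' δ hδ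
  refine ⟨c1, d1, hc1, hd1, fun c hc hcc d hd hdd Kt e cP L hK he hcP hL => ?_⟩
  obtain ⟨C1, hC1, H1⟩ := H1 c hc hcc d hd hdd Kt e cP L hK he hcP hL
  refine ⟨C1, hC1, ?_⟩
  intro t ht ht1 n ez F1 F2 F3 h1 h3 h2 o ho K hKn x ι _ _ s r U g u v hs hr hcls Q1 Q2 Q3 q1 q2 q3
    hez
  exact h ι _ n ez F1 F2 F3 o K x s r U g u v Q1 Q2 Q3 _ ht ht1 hs hr ho hez
    (H1 t ht ht1 n ez F1 F2 F3 h1 h3 h2 o ho K hKn x ι s r U g u v hs hr hcls Q1 Q2 Q3 q1 q2 q3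
      hez)

/-- **A leaf for all class data is a leaf for data with small fibres.** -/
theorem PairQ.toF {Φ : StQ} (H : PairQ Φ) : PairQF Φ :=
  PairQ.mono H fun _ι _ _ _p _n _ez _F1 _F2 _F3 _o _K _x _s _r _U _g _u _v _Q1 _Q2 _Q3 _X
    _ _ _ _ _ _ h _ _ => h

theorem MonoQ.withF {Φ : StQ} (H : MonoQ Φ) : MonoQ (Fib.withF Φ) := by
  intro ι _ _ p n ez F1 F2 F3 o K x s r U g u v Q1 Q2 Q3 X X' ht hs hr hez hX h f1 f2
  exact H ι p n ez F1 F2 F3 o K x s r U g u v Q1 Q2 Q3 X X' ht hs hr hez hX (h f1 f2)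

/-- **Two leaves together.** -/
theorem PairQF.and {Φ1 Φ2 : StQ} (H1 : PairQF Φ1) (H2 : PairQF Φ2) (m1 : MonoQ Φ1)
    (m2 : MonoQ Φ2) : PairQF fun ι _ _ p n ez F1 F2 F3 o K x s r U g u v Q1 Q2 Q3 X =>
      Φ1 ι p n ez F1 F2 F3 o K x s r U g u v Q1 Q2 Q3 X ∧
        Φ2 ι p n ez F1 F2 F3 o K x s r U g u v Q1 Q2 Q3 X :=
  PairQ.mono (H408.PairQ.and H1 H2 (MonoQ.withF m1) (MonoQ.withF m2))
    fun _ι _ _ _p _n _ez _F1 _F2 _F3 _o _K _x _s _r _U _g _u _v _Q1 _Q2 _Q3 _X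
      _ _ _ _ _ _ h f1 f2 => ⟨h.1 f1 f2, h.2 f1 f2⟩

end

end Vale.Agent.P141.H204.Fib
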