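import Vale.Agent.P141.H319.Rad
import Vale.Agent.P141.H922.PairW
import Vale.Agent.P141.H550.Caps

/-!
# P141, line W: random signs on labels, and the norms of the pair weight

`vn f x` is the Euclidean norm of a vector valued function.  For random signs on one label set the
fourth moments of `n2` and `n4` of the random sums are at most three times the fourth powers of the
norms of `vn`.
-/

namespace Vale.Agent.P141.H204

open Finset
open Vale.Agent.P141.PL.H315 (avg avg_nonneg)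
open Vale.Agent.P141.H550
open Vale.Agent.P141.H922
open Vale.Agent.P141.H319 (av rs sg sg_sq av_rs_sq av_rs_four av_sg_mul)

noncomputable section

section

variable {κ : Type*} [Fintype κ] [DecidableEq κ]

theorem av_eq_avg (f : (κ → Bool) → ℝ) : av f = avg univ f := by
  unfold av avg
  rw [card_univ, Fintype.card_fun, Fintype.card_bool]
  push_cast
  rw [div_eq_inv_mul]

/-- random sum over all labels -/
def rv (c : κ → ℝ) (ε : κ → Bool) : ℝ := ∑ l, sg (ε l) * c l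

omit [DecidableEq κ] in
theorem rv_eq (c : κ → ℝ) (ε : κ → Bool) : rv c ε = rs univ c ε := rfl

theorem avg_rv_sq (c : κ → ℝ) : (avg univ fun ε => rv c ε ^ 2) = ∑ l, c l ^ 2 := by
  rw [← av_eq_avg]; exact av_rs_sq univ c

theorem avg_rv_four (c : κ → ℝ) : (avg univ fun ε => rv c ε ^ 4) ≤ 3 * (∑ l, c l ^ 2) ^ 2 := by
  rw [← av_eq_avg]; exact av_rs_four univ c

theorem avg_rv_mul (c d : κ → ℝ) : (avg univ fun ε => rv c ε * rv d ε) = ∑ l, c l * d l := by
  have e1 : ∀ ε : κ → Bool, rv c ε * rv d ε =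
      ∑ l, ∑ m, (c l * d m) * (sg (ε l) * sg (ε m)) := by
    intro ε
    unfold rv
    rw [sum_mul_sum]
    exact sum_congr rfl fun l _ => sum_congr rfl fun m _ => by ring
  rw [avg_congr fun ε _ => e1 ε, avg_sum]
  refine sum_congr rfl fun l _ => ?_
  rw [avg_sum]
  have e2 : ∀ m : κ, (avg univ fun ε : κ → Bool => (c l * d m) * (sg (ε l) * sg (ε m))) =
      if l = m then c l * d m else 0 := by
    intro m
    rw [avg_mul_left, ← av_eq_avg, av_sg_mul]
    split_ifs <;> simp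
  rw [sum_congr rfl fun m _ => e2 m, sum_ite_eq, if_pos (mem_univ l)]

/-- Cauchy–Schwarz for the squares of two functions -/
theorem avg_sq_mul_sq_le {Ω : Type*} (Q : Finset Ω) (g h : Ω → ℝ) {a b K : ℝ} (ha : 0 ≤ a)
    (hb : 0 ≤ b) (hK : 0 ≤ K) (hg : (avg Q fun ω => g ω ^ 4) ≤ K * a ^ 2)
    (hh : (avg Q fun ω => h ω ^ 4) ≤ K * b ^ 2) :
    (avg Q fun ω => g ω ^ 2 * h ω ^ 2) ≤ K * (a * b) := by
  refine (avg_mul_le_sqrt Q _ _).trans ?_
  have e1 : (avg Q fun ω => (g ω ^ 2) ^ 2) = avg Q fun ω => g ω ^ 4 :=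
    avg_congr fun ω _ => by ring
  have e2 : (avg Q fun ω => (h ω ^ 2) ^ 2) = avg Q fun ω => h ω ^ 4 :=
    avg_congr fun ω _ => by ring
  rw [e1, e2]
  calc √(avg Q fun ω => g ω ^ 4) * √(avg Q fun ω => h ω ^ 4)
      ≤ √(K * a ^ 2) * √(K * b ^ 2) :=
        mul_le_mul (Real.sqrt_le_sqrt hg) (Real.sqrt_le_sqrt hh) (Real.sqrt_nonneg _)
          (Real.sqrt_nonneg _)
    _ = K * (a * b) := by
        rw [Real.sqrt_mul hK, Real.sqrt_mul hK, Real.sqrt_sq ha, Real.sqrt_sq hb]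
        have := Real.mul_self_sqrt hK
        linear_combination (a * b) * this

/-- fourth moment of the square norm of a family of random sums -/
theorem avg_vec_four {κ' : Type*} [Fintype κ'] (c : κ' → κ → ℝ) :
    (avg univ fun ε => (∑ j, rv (c j) ε ^ 2) ^ 2) ≤ 3 * (∑ j, ∑ l, c j l ^ 2) ^ 2 := by
  have e1 : ∀ ε : κ → Bool, (∑ j, rv (c j) ε ^ 2) ^ 2 =
      ∑ j, ∑ j', rv (c j) ε ^ 2 * rv (c j') ε ^ 2 := by
    intro ε
    rw [sq, sum_mul_sum]
  rw [avg_congr fun ε _ => e1 ε, avg_sum, sq, sum_mul_sum, mul_sum]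
  refine sum_le_sum fun j _ => ?_
  rw [avg_sum, mul_sum]
  refine sum_le_sum fun j' _ => ?_
  have h0 : ∀ j, 0 ≤ ∑ l, c j l ^ 2 := fun j => sum_nonneg fun _ _ => sq_nonneg _
  exact avg_sq_mul_sq_le _ _ _ (h0 j) (h0 j') (by norm_num) (avg_rv_four _) (avg_rv_four _)

end

/-- the Euclidean norm of a vector valued function -/
def vn {κ X : Type*} [Fintype κ] (f : κ → X → ℝ) (x : X) : ℝ := √(∑ l, f l x ^ 2)

section

variable {κ κ' X : Type*} [Fintype κ] [Fintype κ']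

theorem vn_nonneg (f : κ → X → ℝ) (x : X) : 0 ≤ vn f x := Real.sqrt_nonneg _

theorem vn_sq (f : κ → X → ℝ) (x : X) : vn f x ^ 2 = ∑ l, f l x ^ 2 :=
  Real.sq_sqrt (sum_nonneg fun _ _ => sq_nonneg _)

theorem vn_four (f : κ → X → ℝ) (x : X) : vn f x ^ 4 = (∑ l, f l x ^ 2) ^ 2 := by
  rw [show vn f x ^ 4 = (vn f x ^ 2) ^ 2 by ring, vn_sq]

theorem vn_prod_sq (f : κ' → κ → X → ℝ) (x : X) :
    vn (fun (p : κ' × κ) x => f p.1 p.2 x) x ^ 2 = ∑ j, ∑ l, f j l x ^ 2 := by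
  rw [vn_sq, Fintype.sum_prod_type]

variable [DecidableEq κ]

/-- the random vector valued function: signs on the second label -/
def rf (f : κ' → κ → X → ℝ) (ε : κ → Bool) (j : κ') (x : X) : ℝ := rv (fun l => f j l x) ε

theorem avg_n4_rf (Q : Finset X) (f : κ' → κ → X → ℝ) :
    (avg univ fun ε => n4 Q (vn (rf f ε)) ^ 4) ≤
      3 * n4 Q (vn fun (p : κ' × κ) x => f p.1 p.2 x) ^ 4 := by
  have e1 : ∀ ε : κ → Bool, n4 Q (vn (rf f ε)) ^ 4 =
      avg Q fun x => (∑ j, rv (fun l => f j l x) ε ^ 2) ^ 2 := by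
    intro ε
    rw [n4_four]
    exact avg_congr fun x _ => by rw [vn_four]; rfl
  rw [avg_congr fun ε _ => e1 ε, avg_comm, n4_four, ← avg_mul_left]
  refine avg_mono fun x _ => ?_
  refine (avg_vec_four fun j l => f j l x).trans (le_of_eq ?_)
  rw [show vn (fun (p : κ' × κ) x => f p.1 p.2 x) x ^ 4 =
    (vn (fun (p : κ' × κ) x => f p.1 p.2 x) x ^ 2) ^ 2 by ring, vn_prod_sq]

theorem avg_n2_rf (Q : Finset X) (f : κ' → κ → X → ℝ) :
    (avg univ fun ε => n2 Q (vn (rf f ε)) ^ 4) ≤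
      3 * n2 Q (vn fun (p : κ' × κ) x => f p.1 p.2 x) ^ 4 := by
  set h : (κ → Bool) → X → ℝ := fun ε x => ∑ j, rv (fun l => f j l x) ε ^ 2 with hh
  set F : X → ℝ := fun x => ∑ j, ∑ l, f j l x ^ 2 with hF
  have hF0 : ∀ x, 0 ≤ F x := fun x => sum_nonneg fun _ _ => sum_nonneg fun _ _ => sq_nonneg _
  have hh0 : ∀ ε x, 0 ≤ h ε x := fun ε x => sum_nonneg fun _ _ => sq_nonneg _
  have e0 : ∀ ε, n2 Q (vn (rf f ε)) ^ 4 = avg Q fun x => avg Q fun y => h ε x * h ε y := by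
    intro ε
    rw [show n2 Q (vn (rf f ε)) ^ 4 = (n2 Q (vn (rf f ε)) ^ 2) ^ 2 by ring, n2_sq]
    have : (avg Q fun x => vn (rf f ε) x ^ 2) = avg Q (h ε) :=
      avg_congr fun x _ => by rw [vn_sq]; rfl
    rw [this, sq, ← avg_mul_right]
    exact avg_congr fun x _ => (avg_mul_left _ _ _).symm
  have e1 : n2 Q (vn fun (p : κ' × κ) x => f p.1 p.2 x) ^ 4 =
      avg Q fun x => avg Q fun y => F x * F y := by
    rw [show n2 Q (vn fun (p : κ' × κ) x => f p.1 p.2 x) ^ 4 =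
      (n2 Q (vn fun (p : κ' × κ) x => f p.1 p.2 x) ^ 2) ^ 2 by ring, n2_sq]
    have : (avg Q fun x => vn (fun (p : κ' × κ) x => f p.1 p.2 x) x ^ 2) = avg Q F :=
      avg_congr fun x _ => vn_prod_sq f x
    rw [this, sq, ← avg_mul_right]
    exact avg_congr fun x _ => (avg_mul_left _ _ _).symm
  rw [avg_congr fun ε _ => e0 ε, avg_comm, e1, ← avg_mul_left]
  refine avg_mono fun x _ => ?_
  rw [avg_comm, ← avg_mul_left]
  refine avg_mono fun y _ => ?_
  have k : ∀ x, (avg univ fun ε => h ε x ^ 2) ≤ 3 * F x ^ 2 := fun x =>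
    avg_vec_four fun j l => f j l x
  refine (avg_mul_le_sqrt univ _ _).trans ?_
  calc √(avg univ fun ε => h ε x ^ 2) * √(avg univ fun ε => h ε y ^ 2)
      ≤ √(3 * F x ^ 2) * √(3 * F y ^ 2) :=
        mul_le_mul (Real.sqrt_le_sqrt (k x)) (Real.sqrt_le_sqrt (k y)) (Real.sqrt_nonneg _)
          (Real.sqrt_nonneg _)
    _ = 3 * (F x * F y) := by
        rw [Real.sqrt_mul (by norm_num), Real.sqrt_mul (by norm_num), Real.sqrt_sq (hF0 x),
          Real.sqrt_sq (hF0 y)]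
        have := Real.mul_self_sqrt (show (0 : ℝ) ≤ 3 by norm_num)
        linear_combination (F x * F y) * this

end

end

end Vale.Agent.P141.H204
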